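import Mathlib

/-!
P328: level sequences of a box and the column step (shared definitions).

For a box `{u : u ≤ c}` with column weights `s`, the three level sequences are
`w ρ = #{u : |u| = ρ}`, `l ρ = ∑_{|u| = ρ} s·ζ(u)` with `ζ_j(u) = 1[u_j = c_j]`, and
`q ρ = ∑_{|u| = ρ} ((s·ζ(u))² - ∑_j s_j² 1[u_j + 1 = c_j])`.  Adding a column of capacity `C`
and weight `t` transforms them by `addW`, `addL`, `addQ`.  `Lor m w l q` is the property
propagated by the column step: support `[0, m]`, and at every level of the support the binary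
form `α y² - 2 β y z + γ z²` is nonnegative.
-/

namespace Vale.Agent.Lib.P328.helper74

open Finset

/-- Window sum: the count sequence after adding a column of capacity `C`. -/
noncomputable def addW (C : ℕ) (w : ℤ → ℝ) : ℤ → ℝ :=
  fun r => ∑ k ∈ range (C + 1), w (r - (k : ℤ))

/-- The first-order sequence after adding a column of capacity `C` and weight `t`. -/
noncomputable def addL (C : ℕ) (t : ℝ) (w l : ℤ → ℝ) : ℤ → ℝ :=
  fun r => ∑ k ∈ range (C + 1), l (r - (k : ℤ)) + t * w (r - (C : ℤ))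

/-- The second-order sequence after adding a column of capacity `C` and weight `t`. -/
noncomputable def addQ (C : ℕ) (t : ℝ) (w l q : ℤ → ℝ) : ℤ → ℝ :=
  fun r => ∑ k ∈ range (C + 1), q (r - (k : ℤ)) + 2 * t * l (r - (C : ℤ))
    + t ^ 2 * (w (r - (C : ℤ)) - if 1 ≤ C then w (r - (C : ℤ) + 1) else 0)

/-- The property propagated by the column step. -/
def Lor (m : ℕ) (w l q : ℤ → ℝ) : Prop :=
  (∀ ρ : ℤ, 0 ≤ ρ → ρ ≤ (m : ℤ) → 0 < w ρ) ∧
  (∀ ρ : ℤ, (ρ < 0 ∨ (m : ℤ) < ρ) → w ρ = 0) ∧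
  (∀ ρ : ℤ, (ρ < 0 ∨ (m : ℤ) < ρ) → l ρ = 0) ∧
  (∀ ρ : ℤ, (ρ < 0 ∨ (m : ℤ) < ρ) → q ρ = 0) ∧
  (∀ ρ : ℤ, 0 ≤ ρ → ρ ≤ (m : ℤ) → ∀ y z : ℝ,
    0 ≤ (w (ρ + 1) ^ 2 - w ρ * w (ρ + 2)) * y ^ 2
      - 2 * (w ρ * l (ρ + 1) - w (ρ + 1) * l ρ) * y * z
      + (l ρ ^ 2 - w ρ * q ρ) * z ^ 2)

/-- The base case: the empty box. -/
theorem Lor_base : Lor 0 (fun ρ => if ρ = 0 then (1 : ℝ) else 0) (fun _ => 0) (fun _ => 0) := by
  refine ⟨?_, ?_, ?_, ?_, ?_⟩
  · intro ρ h0 hm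
    have : ρ = 0 := le_antisymm (by exact_mod_cast hm) h0
    simp [this]
  · intro ρ h
    have : ρ ≠ 0 := by
      rcases h with h | h
      · exact ne_of_lt h
      · exact ne_of_gt (by exact_mod_cast h)
    simp [this]
  · intro ρ _
    rfl
  · intro ρ _
    rfl
  · intro ρ h0 hm y z
    have : ρ = 0 := le_antisymm (by exact_mod_cast hm) h0
    subst this
    simp

/-- The consequence used for the negative correlation: `w q ≤ l²` at every level. -/
theorem Lor_gamma {m : ℕ} {w l q : ℤ → ℝ} (h : Lor m w l q) (ρ : ℤ) : w ρ * q ρ ≤ l ρ ^ 2 := by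
  obtain ⟨_, hw0, hl0, _, hmain⟩ := h
  by_cases hin : 0 ≤ ρ ∧ ρ ≤ (m : ℤ)
  · have := hmain ρ hin.1 hin.2 0 1
    simp at this
    linarith
  · have hout : ρ < 0 ∨ (m : ℤ) < ρ := by
      by_contra hcon
      push Not at hcon
      exact hin ⟨hcon.1, hcon.2⟩
    rw [hw0 ρ hout, hl0 ρ hout]
    simp

end Vale.Agent.Lib.P328.helper74
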