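import Mathlib

/-!
P328: a one-dimensional weighted variance inequality along a path (a discrete Brascamp–Lieb
type bound), used for the negative correlation of two unit rows given two arbitrary rows.
-/

namespace Vale.Agent.Lib.P328.helper74

open Finset

/-- One Cauchy–Schwarz step along a path. -/
theorem cs_step {X d A B θ e : ℝ} (hX : X ^ 2 ≤ A * B) (hd : d ^ 2 ≤ θ * e)
    (hA : 0 ≤ A) (hB : 0 ≤ B) (hθ : 0 ≤ θ) (he : 0 ≤ e) :
    (X + d) ^ 2 ≤ (A + θ) * (B + e) := by
  have h1 : 2 * (X * d) ≤ A * e + θ * B := by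
    by_contra hcon
    have hcon := not_le.mp hcon
    have h2 : 0 ≤ A * e + θ * B := by positivity
    have h3 : (A * e + θ * B) ^ 2 < (2 * (X * d)) ^ 2 :=
      pow_lt_pow_left₀ hcon h2 (by norm_num)
    have h4 : (2 * (X * d)) ^ 2 ≤ 4 * ((A * B) * (θ * e)) := by
      have e1 : (2 * (X * d)) ^ 2 = 4 * (X ^ 2 * d ^ 2) := by ring
      rw [e1]
      have hd0 : 0 ≤ d ^ 2 := sq_nonneg d
      have hAB : 0 ≤ A * B := mul_nonneg hA hB
      have := mul_le_mul hX hd hd0 hAB
      linarith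
    nlinarith [sq_nonneg (A * e - θ * B)]
  have e1 : (X + d) ^ 2 = X ^ 2 + 2 * (X * d) + d ^ 2 := by ring
  have e2 : (A + θ) * (B + e) = A * B + (A * e + θ * B) + θ * e := by ring
  rw [e1, e2]
  linarith

/-- Interchange of a triangular double sum. -/
theorem sum_range_Ico_comm (c e : ℕ → ℝ) (n : ℕ) :
    ∑ i ∈ range n, c i * ∑ t ∈ Ico i n, e t = ∑ t ∈ range n, e t * ∑ i ∈ range (t + 1), c i := by
  induction n with
  | zero => simp
  | succ n ih =>
    rw [Finset.sum_range_succ, Finset.sum_range_succ, ← ih]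
    have h1 : ∑ i ∈ range n, c i * ∑ t ∈ Ico i (n + 1), e t
        = ∑ i ∈ range n, c i * ∑ t ∈ Ico i n, e t + e n * ∑ i ∈ range n, c i := by
      rw [Finset.mul_sum, ← Finset.sum_add_distrib]
      refine Finset.sum_congr rfl (fun i hi => ?_)
      have hin : i ≤ n := le_of_lt (Finset.mem_range.mp hi)
      rw [Finset.sum_Ico_succ_top hin]
      ring
    rw [h1, Finset.sum_range_succ]
    simp
    ring

/-- Partial sums. -/
noncomputable def Xs (w : ℕ → ℝ) (t : ℕ) : ℝ := ∑ i ∈ range (t + 1), w i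

theorem Xs_succ (w : ℕ → ℝ) (t : ℕ) : Xs w (t + 1) = Xs w t + w (t + 1) := by
  unfold Xs
  rw [Finset.sum_range_succ]

/-- The bound with slack. -/
noncomputable def Ub (w e : ℕ → ℝ) (σ : ℝ) (N : ℕ) : ℝ :=
  ∑ t ∈ range N, e t * (w (t + 1) * Xs w N - w (N + 1) * Xs w t)
    + σ ^ 2 * (w 1 * Xs w N - w 0 * w (N + 1))

/-- The scaled variance. -/
noncomputable def Vb (w ψ : ℕ → ℝ) (N : ℕ) : ℝ :=
  Xs w N * (∑ i ∈ range (N + 1), w i * ψ i ^ 2) - (∑ i ∈ range (N + 1), w i * ψ i) ^ 2

theorem Vb_succ (w ψ : ℕ → ℝ) (N : ℕ) :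
    Vb w ψ (N + 1) = Vb w ψ N
      + w (N + 1) * ∑ i ∈ range (N + 1), w i * (ψ (N + 1) - ψ i) ^ 2 := by
  unfold Vb
  rw [Xs_succ, Finset.sum_range_succ (fun i => w i * ψ i ^ 2) (N + 1),
    Finset.sum_range_succ (fun i => w i * ψ i) (N + 1)]
  have h : ∑ i ∈ range (N + 1), w i * (ψ (N + 1) - ψ i) ^ 2
      = ψ (N + 1) ^ 2 * Xs w N - 2 * ψ (N + 1) * (∑ i ∈ range (N + 1), w i * ψ i)
        + ∑ i ∈ range (N + 1), w i * ψ i ^ 2 := by
    unfold Xs
    rw [Finset.mul_sum, Finset.mul_sum, ← Finset.sum_sub_distrib, ← Finset.sum_add_distrib]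
    refine Finset.sum_congr rfl (fun i _ => ?_)
    ring
  rw [h]
  ring

/-- The pair bound along the path (Cauchy–Schwarz with telescoping weights). -/
theorem pairBound (w φ e : ℕ → ℝ) (σ : ℝ) (N : ℕ)
    (hw : ∀ i ≤ N, 0 < w i) (he : ∀ i < N, 0 ≤ e i)
    (hlc : ∀ i < N, w i * w (i + 2) ≤ w (i + 1) ^ 2)
    (hinc : ∀ i < N, (φ (i + 1) - φ i) ^ 2 ≤ (w (i + 1) / w i - w (i + 2) / w (i + 1)) * e i)
    (i : ℕ) : ∀ j, i ≤ j → j ≤ N →
      (0 ≤ (if i = 0 then (1 : ℝ) else 0) + w (i + 1) / w i - w (j + 1) / w j) ∧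
      (0 ≤ σ ^ 2 * (if i = 0 then (1 : ℝ) else 0) + ∑ t ∈ Ico i j, e t) ∧
      (φ j - (φ i + if i = 0 then σ else 0)) ^ 2
        ≤ ((if i = 0 then (1 : ℝ) else 0) + w (i + 1) / w i - w (j + 1) / w j)
          * (σ ^ 2 * (if i = 0 then (1 : ℝ) else 0) + ∑ t ∈ Ico i j, e t) := by
  intro j hij
  induction j, hij using Nat.le_induction with
  | base =>
    intro _
    by_cases h0 : i = 0
    · simp [h0]
      exact sq_nonneg σ
    · simp [h0]
  | succ j hij ih =>
    intro hjN
    have hj : j < N := hjN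
    obtain ⟨hA, hB, hX⟩ := ih (le_of_lt hj)
    have hwj : 0 < w j := hw j (le_of_lt hj)
    have hwj1 : 0 < w (j + 1) := hw (j + 1) hjN
    have hθ : 0 ≤ w (j + 1) / w j - w (j + 2) / w (j + 1) := by
      rw [sub_nonneg, div_le_div_iff₀ hwj1 hwj]
      have := hlc j hj
      nlinarith
    have hej := he j hj
    have hstep := cs_step hX (hinc j hj) hA hB hθ hej
    have e1 : φ (j + 1) - (φ i + if i = 0 then σ else 0)
        = (φ j - (φ i + if i = 0 then σ else 0)) + (φ (j + 1) - φ j) := by ring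
    have e2 : (if i = 0 then (1 : ℝ) else 0) + w (i + 1) / w i - w (j + 1 + 1) / w (j + 1)
        = ((if i = 0 then (1 : ℝ) else 0) + w (i + 1) / w i - w (j + 1) / w j)
          + (w (j + 1) / w j - w (j + 2) / w (j + 1)) := by ring
    have e3 : σ ^ 2 * (if i = 0 then (1 : ℝ) else 0) + ∑ t ∈ Ico i (j + 1), e t
        = (σ ^ 2 * (if i = 0 then (1 : ℝ) else 0) + ∑ t ∈ Ico i j, e t) + e j := by
      rw [Finset.sum_Ico_succ_top hij]
      ring
    rw [e1, e2, e3]
    exact ⟨by linarith, by linarith, hstep⟩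

theorem Ub_succ (w e : ℕ → ℝ) (σ : ℝ) (N : ℕ) :
    Ub w e σ (N + 1) = Ub w e σ N
      + σ ^ 2 * (w (N + 1) * (w 0 + w 1) - w 0 * w (N + 2))
      + ∑ t ∈ range (N + 1), e t *
          (w (N + 1) * (Xs w t + w (t + 1)) - w (N + 2) * Xs w t) := by
  unfold Ub
  rw [Finset.sum_range_succ (fun t => e t * (w (t + 1) * Xs w (N + 1) - w (N + 1 + 1) * Xs w t)) N,
    Finset.sum_range_succ (fun t => e t * (w (N + 1) * (Xs w t + w (t + 1)) - w (N + 2) * Xs w t)) N,
    Xs_succ]
  have h : ∑ t ∈ range N, e t * (w (t + 1) * (Xs w N + w (N + 1)) - w (N + 1 + 1) * Xs w t)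
      = ∑ t ∈ range N, e t * (w (t + 1) * Xs w N - w (N + 1) * Xs w t)
        + ∑ t ∈ range N, e t * (w (N + 1) * (Xs w t + w (t + 1)) - w (N + 2) * Xs w t) := by
    rw [← Finset.sum_add_distrib]
    refine Finset.sum_congr rfl (fun t _ => ?_)
    ring
  rw [h]
  ring

/-- The path inequality with slack: the scaled variance of `φ + σ·1[i = 0]` is bounded by the
energies `e` (with the telescoping weights) and the budget of the virtual step `σ`. -/
theorem core_slack (w φ e : ℕ → ℝ) (σ : ℝ) : ∀ N : ℕ,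
    (∀ i ≤ N, 0 < w i) → (∀ i < N, 0 ≤ e i) →
    (∀ i < N, w i * w (i + 2) ≤ w (i + 1) ^ 2) →
    (∀ i < N, (φ (i + 1) - φ i) ^ 2 ≤ (w (i + 1) / w i - w (i + 2) / w (i + 1)) * e i) →
    Vb w (fun i => φ i + if i = 0 then σ else 0) N ≤ Ub w e σ N := by
  intro N
  induction N with
  | zero =>
    intro _ _ _ _
    unfold Vb Ub Xs
    simp
    ring_nf
    exact le_refl _
  | succ N ih =>
    intro hw he hlc hinc
    have hw' : ∀ i ≤ N, 0 < w i := fun i hi => hw i (Nat.le_succ_of_le hi)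
    have he' : ∀ i < N, 0 ≤ e i := fun i hi => he i (Nat.lt_succ_of_lt hi)
    have hlc' : ∀ i < N, w i * w (i + 2) ≤ w (i + 1) ^ 2 :=
      fun i hi => hlc i (Nat.lt_succ_of_lt hi)
    have hinc' : ∀ i < N, (φ (i + 1) - φ i) ^ 2
        ≤ (w (i + 1) / w i - w (i + 2) / w (i + 1)) * e i :=
      fun i hi => hinc i (Nat.lt_succ_of_lt hi)
    have IH := ih hw' he' hlc' hinc'
    rw [Vb_succ, Ub_succ]
    have hwN1 : 0 < w (N + 1) := hw (N + 1) le_rfl
    -- pair bounds for the new top point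
    have hpair : ∀ i ∈ range (N + 1),
        w (N + 1) * (w i * ((fun i => φ i + if i = 0 then σ else 0) (N + 1)
          - (fun i => φ i + if i = 0 then σ else 0) i) ^ 2)
        ≤ (w (N + 1) * ((if i = 0 then w 0 else 0) + w (i + 1)) - w i * w (N + 2))
          * (σ ^ 2 * (if i = 0 then (1 : ℝ) else 0) + ∑ t ∈ Ico i (N + 1), e t) := by
      intro i hi
      have hiN : i ≤ N := Nat.lt_succ_iff.mp (Finset.mem_range.mp hi)
      have hwi : 0 < w i := hw' i hiN
      obtain ⟨hA, hB, hX⟩ := pairBound w φ e σ (N + 1) hw he hlc hinc i (N + 1)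
        (Nat.le_succ_of_le hiN) le_rfl
      have e1 : (fun i => φ i + if i = 0 then σ else 0) (N + 1) = φ (N + 1) := by
        simp
      rw [e1]
      have e2 : (w (N + 1) * ((if i = 0 then w 0 else 0) + w (i + 1)) - w i * w (N + 2))
          = w (N + 1) * w i *
            ((if i = 0 then (1 : ℝ) else 0) + w (i + 1) / w i - w (N + 1 + 1) / w (N + 1)) := by
        by_cases h0 : i = 0
        · subst h0
          simp only [if_true]
          field_simp
        · simp only [h0, if_false]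
          field_simp
          ring
      rw [e2]
      have hpos : 0 ≤ w (N + 1) * w i := le_of_lt (mul_pos hwN1 hwi)
      calc w (N + 1) * (w i * (φ (N + 1) - (fun i => φ i + if i = 0 then σ else 0) i) ^ 2)
          = w (N + 1) * w i * (φ (N + 1) - (φ i + if i = 0 then σ else 0)) ^ 2 := by ring
        _ ≤ w (N + 1) * w i *
            (((if i = 0 then (1 : ℝ) else 0) + w (i + 1) / w i - w (N + 1 + 1) / w (N + 1))
              * (σ ^ 2 * (if i = 0 then (1 : ℝ) else 0) + ∑ t ∈ Ico i (N + 1), e t)) :=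
            mul_le_mul_of_nonneg_left hX hpos
        _ = _ := by ring
    have hsum := Finset.sum_le_sum hpair
    rw [← Finset.mul_sum] at hsum
    -- evaluate the right-hand side
    have hR : ∑ i ∈ range (N + 1),
        (w (N + 1) * ((if i = 0 then w 0 else 0) + w (i + 1)) - w i * w (N + 2))
          * (σ ^ 2 * (if i = 0 then (1 : ℝ) else 0) + ∑ t ∈ Ico i (N + 1), e t)
        = σ ^ 2 * (w (N + 1) * (w 0 + w 1) - w 0 * w (N + 2))
          + ∑ t ∈ range (N + 1), e t *
              (w (N + 1) * (Xs w t + w (t + 1)) - w (N + 2) * Xs w t) := by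
      have hsplit : ∀ i ∈ range (N + 1),
          (w (N + 1) * ((if i = 0 then w 0 else 0) + w (i + 1)) - w i * w (N + 2))
            * (σ ^ 2 * (if i = 0 then (1 : ℝ) else 0) + ∑ t ∈ Ico i (N + 1), e t)
          = (if i = 0 then σ ^ 2 * (w (N + 1) * (w 0 + w 1) - w 0 * w (N + 2)) else 0)
            + (w (N + 1) * ((if i = 0 then w 0 else 0) + w (i + 1)) - w i * w (N + 2))
              * ∑ t ∈ Ico i (N + 1), e t := by
        intro i _
        by_cases h0 : i = 0
        · subst h0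
          simp only [if_true]
          ring
        · simp only [h0, if_false]
          ring
      rw [Finset.sum_congr rfl hsplit, Finset.sum_add_distrib, sum_range_Ico_comm]
      have hdelta : ∑ i ∈ range (N + 1),
          (if i = 0 then σ ^ 2 * (w (N + 1) * (w 0 + w 1) - w 0 * w (N + 2)) else 0)
          = σ ^ 2 * (w (N + 1) * (w 0 + w 1) - w 0 * w (N + 2)) := by
        rw [Finset.sum_ite_eq' (range (N + 1)) 0]
        simp
      rw [hdelta]
      congr 1
      refine Finset.sum_congr rfl (fun t _ => ?_)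
      congr 1
      -- inner sum
      have hin : ∑ i ∈ range (t + 1),
          (w (N + 1) * ((if i = 0 then w 0 else 0) + w (i + 1)) - w i * w (N + 2))
          = w (N + 1) * (w 0 + ∑ i ∈ range (t + 1), w (i + 1)) - w (N + 2) * Xs w t := by
        unfold Xs
        rw [Finset.sum_sub_distrib, ← Finset.mul_sum, Finset.sum_add_distrib,
          Finset.sum_ite_eq' (range (t + 1)) 0, ← Finset.sum_mul]
        simp
        ring
      rw [hin]
      have hsh : w 0 + ∑ i ∈ range (t + 1), w (i + 1) = Xs w t + w (t + 1) := by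
        unfold Xs
        rw [← Finset.sum_range_succ (fun i => w i) (t + 1), Finset.sum_range_succ' (fun i => w i) (t + 1)]
        ring
      rw [hsh]
    rw [hR] at hsum
    linarith

end Vale.Agent.Lib.P328.helper74
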