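import Mathlib
import Vale.Agent.Lib.P328.helper74.NegCorrCore
import Vale.Agent.Lib.P328.helper74.ChainDefs

/-!
P328: the column step preserves `Lor` (the algebraic heart of the negative correlation of two
unit rows given two arbitrary rows).
-/

namespace Vale.Agent.Lib.P328.helper74

open Finset

/-- Discriminant of a nonnegative binary form. -/
theorem disc_of_nonneg {A B G : ℝ}
    (h : ∀ y z : ℝ, 0 ≤ A * y ^ 2 - 2 * B * y * z + G * z ^ 2) :
    B ^ 2 ≤ A * G ∧ 0 ≤ A ∧ 0 ≤ G := by
  have hA : 0 ≤ A := by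
    have := h 1 0
    simpa using this
  have hG : 0 ≤ G := by
    have := h 0 1
    simpa using this
  refine ⟨?_, hA, hG⟩
  by_cases hA0 : A = 0
  · subst hA0
    by_cases hB : B = 0
    · subst hB
      simp
    · exfalso
      have := h ((G + 1) / (2 * B)) 1
      have e : (0 : ℝ) * ((G + 1) / (2 * B)) ^ 2 - 2 * B * ((G + 1) / (2 * B)) * 1 + G * 1 ^ 2
          = -1 := by
        field_simp
        ring
      rw [e] at this
      linarith
  · have hApos : 0 < A := lt_of_le_of_ne hA (Ne.symm hA0)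
    have := h B A
    have e : A * B ^ 2 - 2 * B * B * A + G * A ^ 2 = A * (A * G - B ^ 2) := by ring
    rw [e] at this
    have := nonneg_of_mul_nonneg_right this hApos
    linarith

/-- The window inequality in the form used for the column step. -/
theorem window_xi (w ξ P : ℕ → ℝ) (σ : ℝ) (N : ℕ)
    (hw : ∀ i ≤ N, 0 < w i) (hw1 : 0 ≤ w (N + 1)) (hP : ∀ i ≤ N, 0 ≤ P i)
    (hlc : ∀ i < N, w i * w (i + 2) ≤ w (i + 1) ^ 2)
    (hinc : ∀ i < N, (w i * ξ (i + 1) - w (i + 1) * ξ i) ^ 2
      ≤ (w (i + 1) ^ 2 - w i * w (i + 2)) * (w i * P i)) :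
    (∑ i ∈ range (N + 1), w i) * (∑ i ∈ range (N + 1), (ξ i ^ 2 / w i - P i)
        + 2 * σ * ξ 0 + σ ^ 2 * (w 0 - w 1))
      ≤ (∑ i ∈ range (N + 1), ξ i + σ * w 0) ^ 2 := by
  have he : ∀ i < N, 0 ≤ P i / w (i + 1) := fun i hi =>
    div_nonneg (hP i (le_of_lt hi)) (le_of_lt (hw (i + 1) hi))
  have hinc' : ∀ i < N, (ξ (i + 1) / w (i + 1) - ξ i / w i) ^ 2
      ≤ (w (i + 1) / w i - w (i + 2) / w (i + 1)) * (P i / w (i + 1)) := by
    intro i hi
    have hwi : 0 < w i := hw i (le_of_lt hi)
    have hwi1 : 0 < w (i + 1) := hw (i + 1) hi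
    have e1 : (ξ (i + 1) / w (i + 1) - ξ i / w i) ^ 2
        = (w i * ξ (i + 1) - w (i + 1) * ξ i) ^ 2 / (w i * w (i + 1)) ^ 2 := by
      field_simp
    have e2 : (w (i + 1) / w i - w (i + 2) / w (i + 1)) * (P i / w (i + 1))
        = (w (i + 1) ^ 2 - w i * w (i + 2)) * (w i * P i) / (w i * w (i + 1)) ^ 2 := by
      field_simp
    rw [e1, e2]
    exact div_le_div_of_nonneg_right (hinc i hi) (sq_nonneg _)
  have hcore := core_slack w (fun i => ξ i / w i) (fun i => P i / w (i + 1)) σ N hw he hlc hinc'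
  unfold Vb Ub at hcore
  have hX0 : 0 ≤ Xs w N := by
    unfold Xs
    exact Finset.sum_nonneg (fun i hi => le_of_lt (hw i (Nat.lt_succ_iff.mp (Finset.mem_range.mp hi))))
  have hXs : Xs w N = ∑ i ∈ range (N + 1), w i := rfl
  -- the slack terms are nonnegative
  have hU : ∑ t ∈ range N, P t / w (t + 1) * (w (t + 1) * Xs w N - w (N + 1) * Xs w t)
      + σ ^ 2 * (w 1 * Xs w N - w 0 * w (N + 1))
      ≤ Xs w N * (∑ t ∈ range N, P t + σ ^ 2 * w 1) := by
    have h1 : ∑ t ∈ range N, P t / w (t + 1) * (w (t + 1) * Xs w N - w (N + 1) * Xs w t)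
        ≤ ∑ t ∈ range N, P t * Xs w N := by
      refine Finset.sum_le_sum (fun t ht => ?_)
      have htN : t < N := Finset.mem_range.mp ht
      have hwt1 : 0 < w (t + 1) := hw (t + 1) htN
      have hXt : 0 ≤ Xs w t := by
        unfold Xs
        exact Finset.sum_nonneg (fun i hi => le_of_lt (hw i (by
          have := Finset.mem_range.mp hi
          omega)))
      have e : P t / w (t + 1) * (w (t + 1) * Xs w N - w (N + 1) * Xs w t)
          = P t * Xs w N - P t / w (t + 1) * (w (N + 1) * Xs w t) := by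
        field_simp
      rw [e]
      have : 0 ≤ P t / w (t + 1) * (w (N + 1) * Xs w t) :=
        mul_nonneg (he t htN) (mul_nonneg hw1 hXt)
      linarith
    have h2 : σ ^ 2 * (w 1 * Xs w N - w 0 * w (N + 1)) ≤ σ ^ 2 * (w 1 * Xs w N) := by
      have hw0 : 0 < w 0 := hw 0 (Nat.zero_le _)
      have : 0 ≤ σ ^ 2 * (w 0 * w (N + 1)) :=
        mul_nonneg (sq_nonneg σ) (mul_nonneg (le_of_lt hw0) hw1)
      linarith
    rw [← Finset.sum_mul] at h1
    linarith
  -- evaluate the sums with ψ
  have hS1 : ∑ i ∈ range (N + 1), w i * (ξ i / w i + if i = 0 then σ else 0)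
      = ∑ i ∈ range (N + 1), ξ i + σ * w 0 := by
    have : ∀ i ∈ range (N + 1), w i * (ξ i / w i + if i = 0 then σ else 0)
        = ξ i + (if i = 0 then σ * w 0 else 0) := by
      intro i hi
      have hwi : 0 < w i := hw i (Nat.lt_succ_iff.mp (Finset.mem_range.mp hi))
      by_cases h0 : i = 0
      · subst h0
        simp only [if_true]
        field_simp
        try ring
      · simp only [h0, if_false]
        field_simp
        try ring
    rw [Finset.sum_congr rfl this, Finset.sum_add_distrib, Finset.sum_ite_eq' (range (N + 1)) 0]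
    simp
  have hS2 : ∑ i ∈ range (N + 1), w i * (ξ i / w i + if i = 0 then σ else 0) ^ 2
      = ∑ i ∈ range (N + 1), ξ i ^ 2 / w i + (2 * σ * ξ 0 + σ ^ 2 * w 0) := by
    have : ∀ i ∈ range (N + 1), w i * (ξ i / w i + if i = 0 then σ else 0) ^ 2
        = ξ i ^ 2 / w i + (if i = 0 then 2 * σ * ξ 0 + σ ^ 2 * w 0 else 0) := by
      intro i hi
      have hwi : 0 < w i := hw i (Nat.lt_succ_iff.mp (Finset.mem_range.mp hi))
      by_cases h0 : i = 0
      · subst h0
        simp only [if_true]
        field_simp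
        try ring
      · simp only [h0, if_false]
        field_simp
        try ring
    rw [Finset.sum_congr rfl this, Finset.sum_add_distrib, Finset.sum_ite_eq' (range (N + 1)) 0]
    simp
  rw [hS1, hS2] at hcore
  have hPN : 0 ≤ P N := hP N le_rfl
  have hsplit : ∑ i ∈ range (N + 1), (ξ i ^ 2 / w i - P i)
      = ∑ i ∈ range (N + 1), ξ i ^ 2 / w i - (∑ t ∈ range N, P t + P N) := by
    rw [Finset.sum_sub_distrib, Finset.sum_range_succ (fun i => P i) N]
  rw [hsplit, ← hXs]
  nlinarith [mul_nonneg hX0 hPN]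

/-- Reflection of a window sum. -/
theorem sum_reflect_int (f : ℤ → ℝ) (r : ℤ) (n : ℕ) :
    ∑ k ∈ range (n + 1), f (r - (k : ℤ)) = ∑ i ∈ range (n + 1), f (r - (n : ℤ) + (i : ℤ)) := by
  rw [← Finset.sum_range_reflect (fun i => f (r - (n : ℤ) + (i : ℤ))) (n + 1)]
  refine Finset.sum_congr rfl (fun j hj => ?_)
  have hjn : j ≤ n := Nat.lt_succ_iff.mp (Finset.mem_range.mp hj)
  have : ((n + 1 - 1 - j : ℕ) : ℤ) = (n : ℤ) - (j : ℤ) := by omega
  simp only [this]
  congr 1
  ring

/-- Truncation of a sum whose tail vanishes. -/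
theorem sum_range_trunc (g : ℕ → ℝ) (N n : ℕ) (hN : N ≤ n)
    (h0 : ∀ i, N < i → i ≤ n → g i = 0) :
    ∑ i ∈ range (n + 1), g i = ∑ i ∈ range (N + 1), g i := by
  symm
  refine Finset.sum_subset (Finset.range_mono (Nat.succ_le_succ hN)) (fun i hi hni => ?_)
  have h1 : i ≤ n := Nat.lt_succ_iff.mp (Finset.mem_range.mp hi)
  have h2 : N < i := by
    by_contra hcon
    exact hni (Finset.mem_range.mpr (Nat.lt_succ_of_le (not_lt.mp hcon)))
  exact h0 i h2 h1

/-- The linear form `ξ_ρ = w_{ρ+1} y + l_ρ z`. -/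
def xi (w l : ℤ → ℝ) (y z : ℝ) (ρ : ℤ) : ℝ := w (ρ + 1) * y + l ρ * z

/-- The level form `τ_ρ = w_{ρ+2} y² + 2 l_{ρ+1} y z + q_ρ z²`. -/
def tau (w l q : ℤ → ℝ) (y z : ℝ) (ρ : ℤ) : ℝ :=
  w (ρ + 2) * y ^ 2 + 2 * l (ρ + 1) * y * z + q ρ * z ^ 2

theorem Lor_nonneg {m : ℕ} {w l q : ℤ → ℝ} (h : Lor m w l q) (ρ : ℤ) : 0 ≤ w ρ := by
  obtain ⟨hpos, hw0, _, _, _⟩ := h
  by_cases hin : 0 ≤ ρ ∧ ρ ≤ (m : ℤ)
  · exact le_of_lt (hpos ρ hin.1 hin.2)
  · have hout : ρ < 0 ∨ (m : ℤ) < ρ := by
      by_contra hcon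
      push Not at hcon
      exact hin ⟨hcon.1, hcon.2⟩
    rw [hw0 ρ hout]

/-- The window inequality for a window of the chain starting at a level `a` of the support. -/
theorem window_chain {m : ℕ} {w l q : ℤ → ℝ} (h : Lor m w l q) (a : ℤ) (ha0 : 0 ≤ a)
    (ham : a ≤ (m : ℤ)) (n : ℕ) (σ y z : ℝ) :
    (∑ i ∈ range (n + 1), w (a + (i : ℤ)))
        * (∑ i ∈ range (n + 1), tau w l q y z (a + (i : ℤ)) + 2 * σ * xi w l y z a
          + σ ^ 2 * (w a - w (a + 1)))
      ≤ (∑ i ∈ range (n + 1), xi w l y z (a + (i : ℤ)) + σ * w a) ^ 2 := by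
  have hnn := Lor_nonneg h
  obtain ⟨hpos, hw0, hl0, hq0, hmain⟩ := h
  set d : ℕ := (m - a).toNat with hd
  have had : a + (d : ℤ) = (m : ℤ) := by
    rw [hd, Int.toNat_of_nonneg (by linarith)]
    ring
  set N : ℕ := min n d with hN
  have hNn : N ≤ n := min_le_left _ _
  have hNd : N ≤ d := min_le_right _ _
  -- vanishing above the support
  have hbig : ∀ i : ℕ, N < i → i ≤ n → (m : ℤ) < a + (i : ℤ) := by
    intro i hi hin
    have hdi : d < i := by
      by_contra hcon
      have hcon := not_lt.mp hcon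
      have : i ≤ N := le_min hin hcon
      omega
    have : (d : ℤ) < (i : ℤ) := by exact_mod_cast hdi
    linarith
  have hxi0 : ∀ ρ : ℤ, (m : ℤ) < ρ → xi w l y z ρ = 0 := by
    intro ρ hρ
    unfold xi
    rw [hw0 (ρ + 1) (Or.inr (by linarith)), hl0 ρ (Or.inr hρ)]
    ring
  have htau0 : ∀ ρ : ℤ, (m : ℤ) < ρ → tau w l q y z ρ = 0 := by
    intro ρ hρ
    unfold tau
    rw [hw0 (ρ + 2) (Or.inr (by linarith)), hl0 (ρ + 1) (Or.inr (by linarith)), hq0 ρ (Or.inr hρ)]
    ring
  rw [sum_range_trunc (fun i : ℕ => w (a + (i : ℤ))) N n hNn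
      (fun i hi hin => hw0 _ (Or.inr (hbig i hi hin))),
    sum_range_trunc (fun i : ℕ => tau w l q y z (a + (i : ℤ))) N n hNn
      (fun i hi hin => htau0 _ (hbig i hi hin)),
    sum_range_trunc (fun i : ℕ => xi w l y z (a + (i : ℤ))) N n hNn
      (fun i hi hin => hxi0 _ (hbig i hi hin))]
  -- levels of the truncated window are in the support
  have hin : ∀ i : ℕ, i ≤ N → 0 ≤ a + (i : ℤ) ∧ a + (i : ℤ) ≤ (m : ℤ) := by
    intro i hi
    have h1 : (i : ℤ) ≤ (d : ℤ) := by exact_mod_cast le_trans hi hNd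
    have h2 : (0 : ℤ) ≤ (i : ℤ) := Int.natCast_nonneg i
    constructor
    · linarith
    · linarith
  have hc1 : ∀ i : ℕ, a + ((i + 1 : ℕ) : ℤ) = a + (i : ℤ) + 1 := by
    intro i
    push_cast
    ring
  have hc3 : ∀ i : ℕ, a + (i : ℤ) + 1 + 1 = a + (i : ℤ) + 2 := by
    intro i
    ring
  have hform : ∀ ρ : ℤ, 0 ≤ ρ → ρ ≤ (m : ℤ) →
      xi w l y z ρ ^ 2 - w ρ * tau w l q y z ρ
        = (w (ρ + 1) ^ 2 - w ρ * w (ρ + 2)) * y ^ 2
          - 2 * (w ρ * l (ρ + 1) - w (ρ + 1) * l ρ) * y * z + (l ρ ^ 2 - w ρ * q ρ) * z ^ 2 := by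
    intro ρ _ _
    unfold xi tau
    ring
  have key := window_xi (fun i : ℕ => w (a + (i : ℤ))) (fun i : ℕ => xi w l y z (a + (i : ℤ)))
    (fun i : ℕ => xi w l y z (a + (i : ℤ)) ^ 2 / w (a + (i : ℤ)) - tau w l q y z (a + (i : ℤ)))
    σ N
    (fun i hi => hpos _ (hin i hi).1 (hin i hi).2)
    (hnn _)
    (by
      intro i hi
      have hwi := hpos _ (hin i hi).1 (hin i hi).2
      have hf := hform _ (hin i hi).1 (hin i hi).2
      have hm := hmain _ (hin i hi).1 (hin i hi).2 y z
      rw [sub_nonneg, le_div_iff₀ hwi]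
      linarith)
    (by
      intro i hi
      have hm := hmain _ (hin i (le_of_lt hi)).1 (hin i (le_of_lt hi)).2
      have hA : 0 ≤ w (a + (i : ℤ) + 1) ^ 2 - w (a + (i : ℤ)) * w (a + (i : ℤ) + 2) := by
        have := hm 1 0
        simpa using this
      simp only [hc1, hc3]
      linarith)
    (by
      intro i hi
      have hi' : i ≤ N := le_of_lt hi
      have hwi := hpos _ (hin i hi').1 (hin i hi').2
      have hf := hform _ (hin i hi').1 (hin i hi').2
      have hm := hmain _ (hin i hi').1 (hin i hi').2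
      have hdisc := disc_of_nonneg (A := w (a + (i : ℤ) + 1) ^ 2 - w (a + (i : ℤ)) * w (a + (i : ℤ) + 2))
        (B := w (a + (i : ℤ)) * l (a + (i : ℤ) + 1) - w (a + (i : ℤ) + 1) * l (a + (i : ℤ)))
        (G := l (a + (i : ℤ)) ^ 2 - w (a + (i : ℤ)) * q (a + (i : ℤ))) hm
      simp only [hc1, hc3]
      have e1 : w (a + (i : ℤ)) * (xi w l y z (a + (i : ℤ)) ^ 2 / w (a + (i : ℤ))
          - tau w l q y z (a + (i : ℤ)))
          = xi w l y z (a + (i : ℤ)) ^ 2 - w (a + (i : ℤ)) * tau w l q y z (a + (i : ℤ)) := by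
        field_simp
      rw [e1, hf]
      have e2 : w (a + (i : ℤ)) * xi w l y z (a + (i : ℤ) + 1)
          - w (a + (i : ℤ) + 1) * xi w l y z (a + (i : ℤ))
          = -((w (a + (i : ℤ) + 1) ^ 2 - w (a + (i : ℤ)) * w (a + (i : ℤ) + 2)) * y)
            + (w (a + (i : ℤ)) * l (a + (i : ℤ) + 1) - w (a + (i : ℤ) + 1) * l (a + (i : ℤ))) * z := by
        unfold xi
        have : a + (i : ℤ) + 1 + 1 = a + (i : ℤ) + 2 := by ring
        rw [this]
        ring
      rw [e2]
      obtain ⟨hd1, hd2, hd3⟩ := hdisc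
      nlinarith [mul_nonneg (sq_nonneg z) (sub_nonneg.mpr hd1)])
  simp only [sub_sub_cancel, Nat.cast_zero, add_zero, Nat.cast_one] at key
  exact key

theorem addW_succ (C : ℕ) (w : ℤ → ℝ) (r : ℤ) :
    addW C w (r + 1) = ∑ k ∈ range (C + 1), w (r - (k : ℤ) + 1) := by
  unfold addW
  refine Finset.sum_congr rfl (fun k _ => ?_)
  congr 1
  ring

theorem addW_succ2 (C : ℕ) (w : ℤ → ℝ) (r : ℤ) :
    addW C w (r + 2) = ∑ k ∈ range (C + 1), w (r - (k : ℤ) + 2) := by
  unfold addW
  refine Finset.sum_congr rfl (fun k _ => ?_)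
  congr 1
  ring

theorem Xi_eq (C : ℕ) (t : ℝ) (w l : ℤ → ℝ) (r : ℤ) (y z : ℝ) :
    addW C w (r + 1) * y + addL C t w l r * z
      = ∑ k ∈ range (C + 1), xi w l y z (r - (k : ℤ)) + (t * z) * w (r - (C : ℤ)) := by
  rw [addW_succ]
  unfold addL xi
  rw [Finset.sum_add_distrib, ← Finset.sum_mul, ← Finset.sum_mul]
  ring

theorem T_eq (C : ℕ) (hC : 1 ≤ C) (t : ℝ) (w l q : ℤ → ℝ) (r : ℤ) (y z : ℝ) :
    addW C w (r + 2) * y ^ 2 + 2 * addL C t w l (r + 1) * y * z + addQ C t w l q r * z ^ 2
      = ∑ k ∈ range (C + 1), tau w l q y z (r - (k : ℤ))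
        + 2 * (t * z) * xi w l y z (r - (C : ℤ))
        + (t * z) ^ 2 * (w (r - (C : ℤ)) - w (r - (C : ℤ) + 1)) := by
  rw [addW_succ2]
  have hL : addL C t w l (r + 1)
      = ∑ k ∈ range (C + 1), l (r - (k : ℤ) + 1) + t * w (r - (C : ℤ) + 1) := by
    unfold addL
    congr 1
    · refine Finset.sum_congr rfl (fun k _ => ?_)
      congr 1
      ring
    · congr 2
      ring
  rw [hL]
  have hsum : ∑ k ∈ range (C + 1), tau w l q y z (r - (k : ℤ))
      = (∑ k ∈ range (C + 1), w (r - (k : ℤ) + 2)) * y ^ 2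
        + 2 * (∑ k ∈ range (C + 1), l (r - (k : ℤ) + 1)) * y * z
        + (∑ k ∈ range (C + 1), q (r - (k : ℤ))) * z ^ 2 := by
    unfold tau
    rw [Finset.sum_add_distrib, Finset.sum_add_distrib, Finset.sum_mul, Finset.sum_mul,
      Finset.mul_sum, Finset.sum_mul, Finset.sum_mul]
  rw [hsum]
  unfold addQ xi
  rw [if_pos hC]
  ring

/-- Splitting a window that reaches below level `0`. -/
theorem sum_split_low (f : ℤ → ℝ) (r' C : ℕ) (hC : r' < C) :
    ∑ k ∈ range (C + 1), f ((r' : ℤ) - (k : ℤ))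
      = ∑ i ∈ range (r' + 1), f (0 + (i : ℤ))
        + ∑ k ∈ Ico (r' + 1) (C + 1), f ((r' : ℤ) - (k : ℤ)) := by
  rw [Finset.range_eq_Ico, ← Finset.sum_Ico_consecutive _ (Nat.zero_le (r' + 1))
    (by omega : r' + 1 ≤ C + 1), ← Finset.range_eq_Ico, sum_reflect_int f (r' : ℤ) r']
  congr 1
  refine Finset.sum_congr rfl (fun i _ => ?_)
  congr 1
  ring

/-- The column step preserves `Lor`. -/
theorem Lor_step {m : ℕ} {w l q : ℤ → ℝ} (h : Lor m w l q) (C : ℕ) (t : ℝ) :
    Lor (m + C) (addW C w) (addL C t w l) (addQ C t w l q) := by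
  have hnn := Lor_nonneg h
  have hh := h
  obtain ⟨hpos, hw0, hl0, hq0, hmain⟩ := h
  have hk0 : ∀ k : ℕ, (0 : ℤ) ≤ (k : ℤ) := fun k => Int.natCast_nonneg k
  have hkC : ∀ k ∈ range (C + 1), (k : ℤ) ≤ (C : ℤ) := fun k hk => by
    exact_mod_cast Nat.lt_succ_iff.mp (Finset.mem_range.mp hk)
  have hout : ∀ r : ℤ, (r < 0 ∨ ((m + C : ℕ) : ℤ) < r) → ∀ k ∈ range (C + 1),
      ((r - (k : ℤ) < 0) ∨ ((m : ℤ) < r - (k : ℤ))) := by
    intro r hr k hk
    have h1 := hk0 k
    have h2 := hkC k hk
    rcases hr with hr | hr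
    · left
      linarith
    · right
      push_cast at hr
      linarith
  have houtC : ∀ r : ℤ, (r < 0 ∨ ((m + C : ℕ) : ℤ) < r) →
      ((r - (C : ℤ) < 0) ∨ ((m : ℤ) < r - (C : ℤ))) := by
    intro r hr
    have h1 := hk0 C
    rcases hr with hr | hr
    · left
      linarith
    · right
      push_cast at hr
      linarith
  refine ⟨?_, ?_, ?_, ?_, ?_⟩
  · -- positivity on the support
    intro r hr0 hrm
    unfold addW
    push_cast at hrm
    apply Finset.sum_pos'
    · intro k _
      exact hnn _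
    · refine ⟨(r - m).toNat, ?_, ?_⟩
      · rw [Finset.mem_range]
        omega
      · apply hpos
        · omega
        · omega
  · intro r hr
    unfold addW
    exact Finset.sum_eq_zero (fun k hk => hw0 _ (hout r hr k hk))
  · intro r hr
    unfold addL
    rw [Finset.sum_eq_zero (fun k hk => hl0 _ (hout r hr k hk)), hw0 _ (houtC r hr)]
    ring
  · intro r hr
    unfold addQ
    rw [Finset.sum_eq_zero (fun k hk => hq0 _ (hout r hr k hk)), hw0 _ (houtC r hr),
      hl0 _ (houtC r hr)]
    by_cases hC : 1 ≤ C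
    · rw [if_pos hC]
      have : w (r - (C : ℤ) + 1) = 0 := by
        apply hw0
        have hC' : (1 : ℤ) ≤ (C : ℤ) := by exact_mod_cast hC
        rcases hr with hr | hr
        · left
          linarith
        · right
          push_cast at hr
          linarith
      rw [this]
      ring
    · rw [if_neg hC]
      ring
  · -- the binary form
    intro r hr0 hrm y z
    push_cast at hrm
    suffices key : addW C w r * (addW C w (r + 2) * y ^ 2 + 2 * addL C t w l (r + 1) * y * z
        + addQ C t w l q r * z ^ 2) ≤ (addW C w (r + 1) * y + addL C t w l r * z) ^ 2 by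
      have e : (addW C w (r + 1) ^ 2 - addW C w r * addW C w (r + 2)) * y ^ 2
          - 2 * (addW C w r * addL C t w l (r + 1) - addW C w (r + 1) * addL C t w l r) * y * z
          + (addL C t w l r ^ 2 - addW C w r * addQ C t w l q r) * z ^ 2
          = (addW C w (r + 1) * y + addL C t w l r * z) ^ 2
            - addW C w r * (addW C w (r + 2) * y ^ 2 + 2 * addL C t w l (r + 1) * y * z
              + addQ C t w l q r * z ^ 2) := by ring
      rw [e]
      linarith
    rcases Nat.eq_zero_or_pos C with hC0 | hCpos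
    · -- capacity zero: a substitution
      subst hC0
      have hW : ∀ ρ : ℤ, addW 0 w ρ = w ρ := by
        intro ρ
        unfold addW
        simp
      have hLr : ∀ ρ : ℤ, addL 0 t w l ρ = l ρ + t * w ρ := by
        intro ρ
        unfold addL
        simp
      have hQ : addQ 0 t w l q r = q r + 2 * t * l r + t ^ 2 * w r := by
        unfold addQ
        simp
      rw [hW, hW, hW, hLr, hLr, hQ]
      have hm := hmain r hr0 (by simpa using hrm) y z
      have e : (w (r + 1) * y + (l r + t * w r) * z) ^ 2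
          - w r * (w (r + 2) * y ^ 2 + 2 * (l (r + 1) + t * w (r + 1)) * y * z
            + (q r + 2 * t * l r + t ^ 2 * w r) * z ^ 2)
          = (w (r + 1) ^ 2 - w r * w (r + 2)) * y ^ 2
            - 2 * (w r * l (r + 1) - w (r + 1) * l r) * y * z
            + (l r ^ 2 - w r * q r) * z ^ 2 := by ring
      linarith
    · rw [Xi_eq, T_eq C hCpos]
      by_cases ha : 0 ≤ r - (C : ℤ)
      · -- the window starts inside the support
        have hWr : addW C w r = ∑ i ∈ range (C + 1), w (r - (C : ℤ) + (i : ℤ)) := by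
          unfold addW
          exact sum_reflect_int w r C
        rw [hWr, sum_reflect_int (fun ρ => tau w l q y z ρ) r C,
          sum_reflect_int (fun ρ => xi w l y z ρ) r C]
        exact window_chain hh (r - (C : ℤ)) ha (by linarith) C (t * z) y z
      · -- the window reaches below level 0
        have hrC : r < (C : ℤ) := by linarith [not_le.mp ha]
        obtain ⟨r', hr'⟩ := Int.eq_ofNat_of_zero_le hr0
        subst hr'
        have hr'C : r' < C := by exact_mod_cast hrC
        have hlow : ∀ k ∈ Ico (r' + 1) (C + 1), ((r' : ℤ) + 1 ≤ (k : ℤ)) := by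
          intro k hk
          have := (Finset.mem_Ico.mp hk).1
          exact_mod_cast this
        have hWsum : addW C w (r' : ℤ) = ∑ i ∈ range (r' + 1), w (0 + (i : ℤ)) := by
          unfold addW
          have hz : ∑ k ∈ Ico (r' + 1) (C + 1), w ((r' : ℤ) - (k : ℤ)) = 0 :=
            Finset.sum_eq_zero (fun k hk => hw0 _ (Or.inl (by linarith [hlow k hk])))
          rw [sum_split_low w r' C hr'C, hz, add_zero]
        have hXisum : ∑ k ∈ range (C + 1), xi w l y z ((r' : ℤ) - (k : ℤ))
            = ∑ i ∈ range (r' + 1), xi w l y z (0 + (i : ℤ)) + w 0 * y := by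
          rw [sum_split_low (fun ρ => xi w l y z ρ) r' C hr'C]
          congr 1
          rw [Finset.sum_eq_single (r' + 1)]
          · unfold xi
            have e1 : (r' : ℤ) - ((r' + 1 : ℕ) : ℤ) + 1 = 0 := by
              push_cast
              ring
            rw [e1, hl0 _ (Or.inl (by push_cast; linarith))]
            ring
          · intro k hk hne
            have h1 := hlow k hk
            have h2 : (r' : ℤ) + 2 ≤ (k : ℤ) := by
              have : r' + 1 ≤ k := (Finset.mem_Ico.mp hk).1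
              have : r' + 2 ≤ k := by omega
              exact_mod_cast this
            unfold xi
            rw [hw0 _ (Or.inl (by linarith)), hl0 _ (Or.inl (by linarith))]
            ring
          · intro hnot
            exact absurd (Finset.mem_Ico.mpr ⟨le_rfl, by omega⟩) hnot
        have hTausum : ∑ k ∈ range (C + 1), tau w l q y z ((r' : ℤ) - (k : ℤ))
            = ∑ i ∈ range (r' + 1), tau w l q y z (0 + (i : ℤ))
              + ((w 1 * y ^ 2 + 2 * l 0 * y * z) + (if r' + 2 ≤ C then w 0 * y ^ 2 else 0)) := by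
          rw [sum_split_low (fun ρ => tau w l q y z ρ) r' C hr'C]
          congr 1
          rw [Finset.sum_eq_sum_Ico_succ_bot (by omega : r' + 1 < C + 1)]
          congr 1
          · unfold tau
            have e1 : (r' : ℤ) - ((r' + 1 : ℕ) : ℤ) + 2 = 1 := by
              push_cast
              ring
            have e2 : (r' : ℤ) - ((r' + 1 : ℕ) : ℤ) + 1 = 0 := by
              push_cast
              ring
            rw [e1, e2, hq0 _ (Or.inl (by push_cast; linarith))]
            ring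
          · by_cases hC2 : r' + 2 ≤ C
            · have hz : ∑ k ∈ Ico (r' + 1 + 1 + 1) (C + 1), tau w l q y z ((r' : ℤ) - (k : ℤ)) = 0 := by
                refine Finset.sum_eq_zero (fun k hk => ?_)
                have h3 : (r' : ℤ) + 3 ≤ (k : ℤ) := by
                  have : r' + 1 + 1 + 1 ≤ k := (Finset.mem_Ico.mp hk).1
                  have : r' + 3 ≤ k := by omega
                  exact_mod_cast this
                unfold tau
                rw [hw0 _ (Or.inl (by linarith)), hl0 _ (Or.inl (by linarith)),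
                  hq0 _ (Or.inl (by linarith))]
                ring
              rw [if_pos hC2, Finset.sum_eq_sum_Ico_succ_bot (by omega : r' + 1 + 1 < C + 1),
                hz, add_zero]
              unfold tau
              have e1 : (r' : ℤ) - ((r' + 1 + 1 : ℕ) : ℤ) + 2 = 0 := by
                push_cast
                ring
              rw [e1, hl0 _ (Or.inl (by push_cast; linarith)),
                hq0 _ (Or.inl (by push_cast; linarith))]
              ring
            · rw [if_neg hC2, Finset.Ico_eq_empty (by omega), Finset.sum_empty]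
        have hgen := window_chain hh 0 le_rfl (Int.natCast_nonneg m) r' y y z
        have hxi0 : xi w l y z 0 = w 1 * y + l 0 * z := by
          unfold xi
          norm_num
        have e01 : w ((0 : ℤ) + 1) = w 1 := by norm_num
        rw [hxi0, e01] at hgen
        have hwa : w ((r' : ℤ) - (C : ℤ)) = 0 := hw0 _ (Or.inl (by linarith))
        have hla : l ((r' : ℤ) - (C : ℤ)) = 0 := hl0 _ (Or.inl (by linarith))
        have hxia : xi w l y z ((r' : ℤ) - (C : ℤ)) = w ((r' : ℤ) - (C : ℤ) + 1) * y := by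
          unfold xi
          rw [hla]
          ring
        rw [hWsum, hXisum, hTausum, hwa, hxia]
        have hW0 : 0 ≤ ∑ i ∈ range (r' + 1), w (0 + (i : ℤ)) :=
          Finset.sum_nonneg (fun i _ => hnn _)
        by_cases hC2 : r' + 2 ≤ C
        · have hwa1 : w ((r' : ℤ) - (C : ℤ) + 1) = 0 := by
            apply hw0
            left
            have : ((r' + 2 : ℕ) : ℤ) ≤ (C : ℤ) := by exact_mod_cast hC2
            push_cast at this
            linarith
          rw [hwa1, if_pos hC2]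
          linarith
        · have hCeq : C = r' + 1 := by omega
          have hwa1 : w ((r' : ℤ) - (C : ℤ) + 1) = w 0 := by
            congr 1
            rw [hCeq]
            push_cast
            ring
          rw [hwa1, if_neg hC2]
          have hw00 : 0 ≤ w 0 := hnn 0
          nlinarith [mul_nonneg hW0 (mul_nonneg hw00 (sq_nonneg (y - t * z)))]

end Vale.Agent.Lib.P328.helper74
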