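import Mathlib
import Vale.Agent.Lib.P328.helper74.NegCorrStep
import Vale.Agent.Lib.P328.helper85.FourRowFinal
import Vale.Agent.Lib.P328.helper83.CrudeTriple
import Vale.Agent.Lib.P328.helper28.BlockFamily
import Vale.Agent.Lib.P328.helper12.FatRow
import Vale.Agent.Lib.P328.RP.RestrictedCol

/-!
P328: two arbitrary rows and any number of rows of sum at most one, arbitrary column sums:
the heat bath on two-by-two blocks mixes in polynomially many steps, with no hypothesis.

The two arbitrary rows form one block of the Knabe argument (`BK.two_fat_mixing22`).  The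
sharp inequality for (block, small row, small row) is the negative correlation of two unit
rows given two arbitrary rows (`H85.fourRow_block_of_step'` with the column step `Lor_step`);
the triple (row of the block, row of the block, small row) only enters through a crude gap
(`crude_triple_le`), and three small rows are covered by `threeRow_rows_of_two_small`.
-/

namespace Vale.Agent.Lib.P328.RP

open Finset
open Vale.Agent.Lib.P335.Bip

/-- **Two arbitrary rows, all other row sums at most one, arbitrary column sums.** -/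
theorem mixing22_two_fat_unit {m n : ℕ} (hm : 2 ≤ m) (hn : 2 ≤ n) (r : Fin m → ℕ)
    (i0 i1 : Fin m) (hr : ∀ i, i ≠ i0 → i ≠ i1 → r i ≤ 1)
    (c : Fin n → ℕ) (x : CT m n r c) (ε : ℝ) (hε : 0 < ε) (hε1 : ε ≤ 1) (t : ℕ)
    (ht : 4 * (m : ℝ) ^ 3 * (n : ℝ) ^ 3 *
      (m * n * Real.log (((∑ i, r i : ℕ) : ℝ) + 1) + Real.log (1 / ε)) ≤ t) :
    (1 / 2) * ∑ y, |(heatBath22 m n r c ^ t) x y - 1 / (Fintype.card (CT m n r c) : ℝ)|
      ≤ ε := by
  have hm2 : (2 : ℝ) ≤ (m : ℝ) := by exact_mod_cast hm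
  have hn2 : (2 : ℝ) ≤ (n : ℝ) := by exact_mod_cast hn
  -- the logarithmic factor is nonnegative
  have hA : 0 ≤ (m : ℝ) * n * Real.log (((∑ i, r i : ℕ) : ℝ) + 1) + Real.log (1 / ε) := by
    have h1 : 0 ≤ Real.log (((∑ i, r i : ℕ) : ℝ) + 1) := by
      apply Real.log_nonneg
      have : (0 : ℝ) ≤ ((∑ i, r i : ℕ) : ℝ) := Nat.cast_nonneg _
      linarith
    have h2 : 0 ≤ Real.log (1 / ε) := by
      apply Real.log_nonneg
      rw [le_div_iff₀ hε]
      linarith
    have h3 : 0 ≤ (m : ℝ) * n := by positivity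
    have := mul_nonneg h3 h1
    linarith
  -- the weaker step counts
  have hsmall : (m : ℝ) ^ 2 * (n : ℝ) ^ 2 *
      (m * n * Real.log (((∑ i, r i : ℕ) : ℝ) + 1) + Real.log (1 / ε)) ≤ t := by
    refine le_trans ?_ ht
    apply mul_le_mul_of_nonneg_right _ hA
    have h1 : (m : ℝ) ^ 2 * (n : ℝ) ^ 2 ≤ (m : ℝ) ^ 3 * (n : ℝ) ^ 3 := by
      have ha : (m : ℝ) ^ 2 ≤ (m : ℝ) ^ 3 := by nlinarith [sq_nonneg (m : ℝ)]
      have hb : (n : ℝ) ^ 2 ≤ (n : ℝ) ^ 3 := by nlinarith [sq_nonneg (n : ℝ)]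
      exact mul_le_mul ha hb (by positivity) (by positivity)
    have h2 : 0 ≤ (m : ℝ) ^ 3 * (n : ℝ) ^ 3 := by positivity
    linarith
  by_cases h01 : i0 = i1
  · -- one arbitrary row
    subst h01
    exact mixing22_one_fat_row hm hn r i0 (fun i hi => hr i hi hi) c x ε hε hε1 t hsmall
  rcases Nat.lt_or_ge m 3 with hm3 | hm3
  · -- two rows: there is no triple of rows
    refine mixing22_of_threeRow_at hm hn r c (fun φ _ _ => ?_) x ε hε hε1 t hsmall
    exfalso
    have := Fintype.card_le_of_embedding φ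
    simp at this
    omega
  · -- at least three rows: the block argument
    have hK : (1 : ℝ) ≤ 4 * (n : ℝ) := by linarith
    have hne : ∀ (k : ℕ) (φ : Fin k ↪ Fin m) (a b : Fin k), a ≠ b → φ a ≠ φ b :=
      fun k φ a b hab h => hab (φ.injective h)
    refine BK.two_fat_mixing22 hm3 hn r c i0 i1 h01 (4 * (n : ℝ)) hK ?_ ?_ ?_ x ε hε hε1 t ?_
    · intro φ h0 h1 x0 g
      refine Vale.Agent.Lib.P328.H85.fourRow_block_of_step'
        (fun m C t w l q h => Vale.Agent.Lib.P328.helper74.Lor_step h C t) n (r ∘ φ) _ ?_ ?_ g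
      · exact hr (φ 2) (h0 ▸ hne 4 φ 2 0 (by decide)) (h1 ▸ hne 4 φ 2 1 (by decide))
      · exact hr (φ 3) (h0 ▸ hne 4 φ 3 0 (by decide)) (h1 ▸ hne 4 φ 3 1 (by decide))
    · intro φ h0 h1 x0 g
      exact Vale.Agent.Lib.P328.RP.crude_triple_le (r ∘ φ) _
        (hr (φ 2) (h0 ▸ hne 3 φ 2 0 (by decide)) (h1 ▸ hne 3 φ 2 1 (by decide))) g
    · intro φ hφ x0 g
      exact threeRow_of_rows (r ∘ φ) _
        (threeRow_rows_of_two_small (r ∘ φ) _ 0 1 (by decide)
          (hr (φ 0) (hφ 0).1 (hφ 0).2) (hr (φ 1) (hφ 1).1 (hφ 1).2)) g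
    · refine le_trans ?_ ht
      have e : (m : ℝ) ^ 2 * (n : ℝ) ^ 2 * (4 * (n : ℝ) * ((m : ℝ) - 2)) *
          (m * n * Real.log (((∑ i, r i : ℕ) : ℝ) + 1) + Real.log (1 / ε))
          = (4 * (m : ℝ) ^ 2 * (n : ℝ) ^ 3 * ((m : ℝ) - 2)) *
            (m * n * Real.log (((∑ i, r i : ℕ) : ℝ) + 1) + Real.log (1 / ε)) := by ring
      rw [e]
      apply mul_le_mul_of_nonneg_right _ hA
      have h3 : 0 ≤ (m : ℝ) ^ 2 * (n : ℝ) ^ 3 := by positivity
      nlinarith

end Vale.Agent.Lib.P328.RP
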