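import Vale.Agent.Lib.P328.helper74.TwoFatUnit
import Vale.Agent.Lib.P328.helper14.TransposeChain

/-!
P328: the mixing bound for margins with at most two rows of sum larger than one (any column
sums) holds as well for margins with at most two columns of sum larger than one (any row
sums): the heat bath on two-by-two blocks is symmetric under transposition of the tables, and
the bound `4 m^3 n^3 (m n log (N + 1) + log (1 / ε))` is symmetric in `m` and `n`.
-/

namespace Vale.Agent.Lib.P328.RP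

open Finset

/-- **Rapid mixing when at most two rows, or at most two columns, have sum larger than one.** -/
theorem mixing22_two_fat_unit_sym {m n : ℕ} (hm : 2 ≤ m) (hn : 2 ≤ n) (r : Fin m → ℕ)
    (c : Fin n → ℕ)
    (h : (∃ i0 i1 : Fin m, ∀ i, i ≠ i0 → i ≠ i1 → r i ≤ 1) ∨
      (∃ j0 j1 : Fin n, ∀ j, j ≠ j0 → j ≠ j1 → c j ≤ 1))
    (x : CT m n r c) (ε : ℝ) (hε : 0 < ε) (hε1 : ε ≤ 1) (t : ℕ)
    (ht : 4 * (m : ℝ) ^ 3 * (n : ℝ) ^ 3 *
      (m * n * Real.log (((∑ i, r i : ℕ) : ℝ) + 1) + Real.log (1 / ε)) ≤ t) :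
    (1 / 2) * ∑ y, |(heatBath22 m n r c ^ t) x y - 1 / (Fintype.card (CT m n r c) : ℝ)| ≤ ε := by
  rcases h with ⟨i0, i1, hr⟩ | ⟨j0, j1, hc⟩
  · exact mixing22_two_fat_unit hm hn r i0 i1 hr c x ε hε hε1 t ht
  · apply mixing22_of_tr
    refine mixing22_two_fat_unit hn hm c j0 j1 hc r (tr x) ε hε hε1 t (le_trans (le_of_eq ?_) ht)
    rw [← sum_rows_eq_sum_cols x]
    ring

end Vale.Agent.Lib.P328.RP
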